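import Vale.Agent.P038.H103.Key

open Finset Classical

namespace Vale.Agent.P038.H103

variable {V : Type*} [Fintype V]

/-- feasible pairs of the second min-cut problem -/
def Feas (E : V → V → Prop) (p : (V → Finset V) × (V → Finset V)) : Prop :=
  (∀ a b, (b = a ∨ E a b) → b ∈ p.1 a) ∧ (∀ a, p.1 a ⊆ p.2 a) ∧ ∀ x a, E x a → x ∉ p.2 a

noncomputable def cost (E : V → V → Prop) (p : (V → Finset V) × (V → Finset V)) : ℤ :=
  ∑ a, c E (p.1 a) + (∑ a, ((p.2 a).card : ℤ) - ∑ t, ((cap E p.2 t).card : ℤ))

lemma exists_min_cost {E : V → V → Prop} (hor : ∀ x y, E x y → ¬ E y x) :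
    ∃ p, Feas E p ∧ ∀ q, Feas E q → cost E p ≤ cost E q := by
  have h1 : ((univ : Finset ((V → Finset V) × (V → Finset V))).filter
      (fun p => Feas E p)).Nonempty := by
    refine ⟨(fun a => univ.filter (fun b => b = a ∨ E a b),
      fun a => univ.filter (fun b => b = a ∨ E a b)), ?_⟩
    simp only [mem_filter, mem_univ, true_and]
    refine ⟨fun a b h => by simpa using h, fun a => Subset.refl _, fun x a h => ?_⟩
    simp only [mem_filter, mem_univ, true_and, not_or]
    exact ⟨fun h' => by subst h'; exact hor _ _ h h, hor _ _ h⟩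
  obtain ⟨p, hp, hmin⟩ := exists_min_image _ (fun p => cost E p) h1
  simp only [mem_filter, mem_univ, true_and] at hp hmin
  exact ⟨p, hp, hmin⟩

lemma row_min {E : V → V → Prop} {B T : V → Finset V} (hf : Feas E (B, T))
    (hmin : ∀ q, Feas E q → cost E (B, T) ≤ cost E q) :
    ∀ a R, B a ⊆ R → R ⊆ T a → c E (B a) ≤ c E R := by
  intro a R h1 h2
  by_contra hcon
  push Not at hcon
  have hf' : Feas E (Function.update B a R, T) := by
    refine ⟨fun b x h => ?_, fun b => ?_, hf.2.2⟩
    · by_cases hb : b = a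
      · subst hb
        simp only [Function.update_self]
        exact h1 (hf.1 b x h)
      · simp only [Function.update_of_ne hb]
        exact hf.1 b x h
    · by_cases hb : b = a
      · subst hb
        simp only [Function.update_self]
        exact h2
      · simp only [Function.update_of_ne hb]
        exact hf.2.1 b
  have h3 := hmin _ hf'
  have h4 : ∑ b, c E (Function.update B a R b) < ∑ b, c E (B b) := by
    apply sum_lt_sum
    · intro b _
      by_cases hb : b = a
      · subst hb
        simp only [Function.update_self]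
        exact hcon.le
      · simp only [Function.update_of_ne hb]
        exact le_refl _
    · exact ⟨a, mem_univ _, by simpa using hcon⟩
  unfold cost at h3
  simp only at h3
  linarith

lemma col_min {E : V → V → Prop} {B T : V → Finset V} (hf : Feas E (B, T))
    (hmin : ∀ q, Feas E q → cost E (B, T) ≤ cost E q) :
    ∀ x (D : Finset V), (∀ a ∈ D, x ∈ T a ∧ x ∉ B a) →
      D.card ≤ (univ.filter (fun t => x ∈ cap E T t ∧ ∃ a ∈ D, a = t ∨ E a t)).card := by
  intro x D hD
  set T' : V → Finset V := fun a => if a ∈ D then (T a).erase x else T a with hT'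
  have hT'T : ∀ a, T' a ⊆ T a := by
    intro a
    simp only [hT']
    split_ifs
    · exact erase_subset _ _
    · exact Subset.refl _
  have hf' : Feas E (B, T') := by
    refine ⟨hf.1, fun a y hy => ?_, fun y a h h' => hf.2.2 y a h (hT'T a h')⟩
    have hy' := hf.2.1 a hy
    simp only [hT']
    split_ifs with h
    · refine mem_erase.2 ⟨fun h' => ?_, hy'⟩
      subst h'
      exact (hD a h).2 hy
    · exact hy'
  have h3 := hmin _ hf'
  unfold cost at h3
  simp only at h3
  have h4 : ∑ a, ((T a).card : ℤ) = ∑ a, ((T' a).card : ℤ) + D.card := by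
    have : (D.card : ℤ) = ∑ a : V, if a ∈ D then (1 : ℤ) else 0 := by simp
    rw [this, ← sum_add_distrib]
    apply sum_congr rfl
    intro a _
    simp only [hT']
    split_ifs with h
    · have := card_erase_add_one (hD a h).1
      exact_mod_cast this.symm
    · simp
  set S := univ.filter (fun t => x ∈ cap E T t ∧ ∃ a ∈ D, a = t ∨ E a t) with hS
  have h5 : ∑ t, ((cap E T t).card : ℤ) ≤ ∑ t, ((cap E T' t).card : ℤ) + S.card := by
    have : (S.card : ℤ) = ∑ a : V, if a ∈ S then (1 : ℤ) else 0 := by simp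
    rw [this, ← sum_add_distrib]
    apply sum_le_sum
    intro t _
    split_ifs with h
    · have h6 : cap E T t ⊆ insert x (cap E T' t) := by
        intro y hy
        rw [mem_insert]
        by_cases hyx : y = x
        · exact Or.inl hyx
        · right
          rw [mem_cap] at hy ⊢
          intro a ha
          have := hy a ha
          simp only [hT']
          split_ifs
          · exact mem_erase.2 ⟨hyx, this⟩
          · exact this
      have := (card_le_card h6).trans (card_insert_le _ _)
      exact_mod_cast this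
    · have h6 : cap E T t ⊆ cap E T' t := by
        intro y hy
        have hy0 := hy
        rw [mem_cap] at hy ⊢
        intro a ha
        have h7 := hy a ha
        simp only [hT']
        split_ifs with h8
        · refine mem_erase.2 ⟨fun h9 => h ?_, h7⟩
          subst h9
          rw [hS, mem_filter]
          exact ⟨mem_univ _, hy0, a, h8, ha⟩
        · exact h7
      have := card_le_card h6
      simp only [add_zero]
      exact_mod_cast this
  have : (D.card : ℤ) ≤ S.card := by linarith
  exact_mod_cast this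

/-- the second family -/
noncomputable def Yf (E : V → V → Prop) (T : V → Finset V) (t : V) : Finset V :=
  univ.filter (fun x => x = t ∨ ¬ ∃ a, (a = t ∨ E a t) ∧ a ≠ x ∧ a ∈ T x)

lemma mem_Yf {E : V → V → Prop} {T : V → Finset V} {t x : V} :
    x ∈ Yf E T t ↔ (x = t ∨ ¬ ∃ a, (a = t ∨ E a t) ∧ a ≠ x ∧ a ∈ T x) := by simp [Yf]

lemma orth {E : V → V → Prop} {B T : V → Finset V} (hf : Feas E (B, T)) :
    ∀ a b, a ≠ b → ¬ (b ∈ Nc E (cap E B a) ∧ a ∈ Nc E (Yf E T b)) := by
  obtain ⟨h1, h2, h3⟩ := hf
  simp only at h1 h2 h3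
  rintro a b hab ⟨hb, ha⟩
  rw [mem_Nc] at hb ha
  obtain ⟨x, hx, hxb⟩ := hb
  obtain ⟨y, hy, hya⟩ := ha
  rw [mem_cap] at hx
  rw [mem_Yf] at hy
  have hxT : ∀ s, (s = a ∨ E s a) → x ∈ T s := fun s hs => h2 s (hx s hs)
  rcases hy with hyb | hy
  · subst hyb
    have hEya : E y a := by
      rcases hya with h | h
      · exact absurd h.symm hab
      · exact h
    have h4 := hxT y (Or.inr hEya)
    have h5 : x = y := by
      rcases hxb with h | h
      · exact h
      · exact absurd h4 (h3 x y h)
    subst h5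
    exact h3 x a hEya (hxT a (Or.inl rfl))
  · have h4 := hxT y hya
    have h5 : x = y := by
      by_contra hne
      exact hy ⟨x, hxb, hne, h4⟩
    subst h5
    have h6 : x = a := by
      rcases hya with h | h
      · exact h
      · exact absurd (hxT a (Or.inl rfl)) (h3 x a h)
    subst h6
    have hEab : E x b := by
      rcases hxb with h | h
      · exact absurd h hab
      · exact h
    exact hy ⟨b, Or.inl rfl, fun h => hab h.symm, h2 x (h1 x b (Or.inr hEab))⟩

lemma card_compl_int (S : Finset V) : ((Sᶜ).card : ℤ) = Fintype.card V - S.card := by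
  have := card_add_card_compl S
  omega

lemma second_cost {E : V → V → Prop} {B T : V → Finset V} (hf : Feas E (B, T)) :
    ∑ t, c E (Yf E T t) ≤ ∑ x, ((Nc E (T x)).card : ℤ) - ∑ z, ((Nc E (cap E T z)).card : ℤ) := by
  obtain ⟨h1, h2, h3⟩ := hf
  simp only at h1 h2 h3
  have e0 : ∀ t, c E (Yf E T t) = (((Yf E T t)ᶜ).card : ℤ) - ((Nc E (Yf E T t))ᶜ).card := by
    intro t
    rw [card_compl_int, card_compl_int]
    unfold c
    ring
  simp_rw [e0]
  rw [sum_sub_distrib, sum_card_comm (fun t => (Yf E T t)ᶜ),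
    sum_card_comm (fun t => (Nc E (Yf E T t))ᶜ)]
  have hA : ∑ x, ((univ.filter (fun a => x ∈ (Yf E T a)ᶜ)).card : ℤ) ≤
      ∑ x, (((Nc E (T x)).card : ℤ) - 1) := by
    apply sum_le_sum
    intro x _
    have hx : x ∈ Nc E (T x) := mem_Nc.2 ⟨x, h2 x (h1 x x (Or.inl rfl)), Or.inl rfl⟩
    have h4 : univ.filter (fun a => x ∈ (Yf E T a)ᶜ) ⊆ (Nc E (T x)).erase x := by
      intro t ht
      simp only [mem_filter, mem_univ, true_and, mem_compl, mem_Yf, not_or, not_not] at ht
      obtain ⟨h5, a, h6, h7, h8⟩ := ht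
      exact mem_erase.2 ⟨fun h => h5 h.symm, mem_Nc.2 ⟨a, h8, h6⟩⟩
    have h5 := card_le_card h4
    have h6 := card_erase_add_one hx
    omega
  have hB : ∑ z, (((Nc E (cap E T z)).card : ℤ) - 1) ≤
      ∑ z, ((univ.filter (fun a => z ∈ (Nc E (Yf E T a))ᶜ)).card : ℤ) := by
    apply sum_le_sum
    intro z _
    have hz : z ∈ Nc E (cap E T z) := by
      refine mem_Nc.2 ⟨z, mem_cap.2 fun a ha => h2 a (h1 a z ?_), Or.inl rfl⟩
      rcases ha with h | h
      · exact Or.inl h.symm
      · exact Or.inr h
    have h4 : (Nc E (cap E T z)).erase z ⊆ univ.filter (fun a => z ∈ (Nc E (Yf E T a))ᶜ) := by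
      intro t ht
      rw [mem_erase, mem_Nc] at ht
      obtain ⟨htz, a, ha, hat⟩ := ht
      rw [mem_cap] at ha
      simp only [mem_filter, mem_univ, true_and, mem_compl]
      intro hzN
      rw [mem_Nc] at hzN
      obtain ⟨y, hy, hyz⟩ := hzN
      rw [mem_Yf] at hy
      have hay : a ∈ T y := ha y hyz
      rcases hy with h | h
      · subst h
        -- y = t, t → z
        have hEyz : E y z := by
          rcases hyz with h | h
          · exact absurd h htz
          · exact h
        have h5 : a = y := by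
          rcases hat with h | h
          · exact h
          · exact absurd hay (h3 a y h)
        subst h5
        exact h3 a z hEyz (ha z (Or.inl rfl))
      · apply h
        by_cases hya : a = y
        · subst hya
          by_cases hta : t = a
          · subst hta
            -- t = a = y, so t → z
            have hEyz : E t z := by
              rcases hyz with h | h
              · exact absurd h htz
              · exact h
            exact absurd (ha z (Or.inl rfl)) (h3 t z hEyz)
          · refine ⟨t, Or.inl rfl, hta, h2 a (h1 a t ?_)⟩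
            rcases hat with h | h
            · exact absurd h.symm hta
            · exact Or.inr h
        · exact ⟨a, hat, hya, hay⟩
    have h5 := card_le_card h4
    have h6 := card_erase_add_one hz
    omega
  have e1 : ∑ x, (((Nc E (T x)).card : ℤ) - 1) = ∑ x, ((Nc E (T x)).card : ℤ) - Fintype.card V := by
    rw [sum_sub_distrib]; simp
  have e2 : ∑ z, (((Nc E (cap E T z)).card : ℤ) - 1) =
      ∑ z, ((Nc E (cap E T z)).card : ℤ) - Fintype.card V := by
    rw [sum_sub_distrib]; simp
  linarith

/-- back from an orthogonal pair to a feasible pair -/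
lemma back {E : V → V → Prop} {X Y : V → Finset V} (hX : ∀ a, a ∈ X a) (hY : ∀ a, a ∈ Y a)
    (ho : ∀ a b, a ≠ b → ¬ (b ∈ Nc E (X a) ∧ a ∈ Nc E (Y b))) (hirr : ∀ x, ¬ E x x) :
    ∃ p, Feas E p ∧ cost E p ≤ ∑ a, c E (Nc E (X a)) + ∑ a, c E (Nc E (Y a)) := by
  set T' : V → Finset V := fun a => univ.filter (fun x => x = a ∨ a ∉ Nc E (Y x)) with hT'
  have hXN : ∀ a b, (b = a ∨ E a b) → b ∈ Nc E (X a) := by
    intro a b h
    refine mem_Nc.2 ⟨a, hX a, ?_⟩
    rcases h with h | h
    · exact Or.inl h.symm
    · exact Or.inr h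
  have hYN : ∀ a b, (b = a ∨ E a b) → b ∈ Nc E (Y a) := by
    intro a b h
    refine mem_Nc.2 ⟨a, hY a, ?_⟩
    rcases h with h | h
    · exact Or.inl h.symm
    · exact Or.inr h
  refine ⟨(fun a => Nc E (X a), T'), ⟨hXN, ?_, ?_⟩, ?_⟩
  · intro a x hx
    simp only [hT', mem_filter, mem_univ, true_and]
    by_cases h : x = a
    · exact Or.inl h
    · right
      intro h'
      exact ho a x (fun h'' => h h''.symm) ⟨hx, h'⟩
  · intro x a h
    simp only [hT', mem_filter, mem_univ, true_and, not_or, not_not]
    refine ⟨fun h' => ?_, hYN x a (Or.inr h)⟩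
    subst h'
    exact hirr _ h
  · unfold cost
    simp only
    have hA : ∑ a, ((T' a).card : ℤ) ≤ ∑ x, (1 + (((Nc E (Y x))ᶜ).card : ℤ)) := by
      rw [sum_card_comm T']
      apply sum_le_sum
      intro x _
      have h4 : univ.filter (fun a => x ∈ T' a) ⊆ insert x (Nc E (Y x))ᶜ := by
        intro a ha
        simp only [hT', mem_filter, mem_univ, true_and] at ha
        rw [mem_insert, mem_compl]
        rcases ha with h | h
        · exact Or.inl h.symm
        · exact Or.inr h
      have := (card_le_card h4).trans (card_insert_le _ _)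
      omega
    have hB : ∑ x, (1 + (((Nc E (Nc E (Y x)))ᶜ).card : ℤ)) ≤ ∑ t, ((cap E T' t).card : ℤ) := by
      rw [sum_card_comm (fun t => cap E T' t)]
      apply sum_le_sum
      intro x _
      have h4 : insert x (Nc E (Nc E (Y x)))ᶜ ⊆ univ.filter (fun t => x ∈ cap E T' t) := by
        intro t ht
        simp only [mem_filter, mem_univ, true_and, mem_cap]
        intro a ha
        simp only [hT', mem_filter, mem_univ, true_and]
        rw [mem_insert, mem_compl] at ht
        rcases ht with h | h
        · subst h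
          rcases ha with h | h
          · exact Or.inl h.symm
          · right
            intro h'
            have hne : a ≠ t := fun h'' => by subst h''; exact hirr _ h
            exact ho a t hne ⟨hXN a t (Or.inr h), h'⟩
        · right
          intro h'
          exact h (mem_Nc.2 ⟨a, h', ha⟩)
      have h5 : x ∉ (Nc E (Nc E (Y x)))ᶜ := by
        rw [mem_compl, not_not]
        exact mem_Nc.2 ⟨x, hYN x x (Or.inl rfl), Or.inl rfl⟩
      have h6 := card_le_card h4
      rw [card_insert_of_notMem h5] at h6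
      omega
    have e3 : ∑ a, c E (Nc E (Y a)) = ∑ x, (1 + (((Nc E (Y x))ᶜ).card : ℤ)) -
        ∑ x, (1 + (((Nc E (Nc E (Y x)))ᶜ).card : ℤ)) := by
      rw [← sum_sub_distrib]
      apply sum_congr rfl
      intro x _
      rw [card_compl_int, card_compl_int]
      unfold c
      ring
    linarith

/-- the contradiction -/
theorem no_expander {E : V → V → Prop} [Nonempty V] (hor : ∀ x y, E x y → ¬ E y x)
    (hout : ∀ v, ∃ u, E v u)
    (hG : ∀ X : Finset V, 0 < c E X → c E (Nc E X) < c E X) : False := by
  have hcnn : ∀ X : Finset V, 0 ≤ c E X := by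
    intro X
    unfold c
    have : X ⊆ Nc E X := fun x hx => mem_Nc.2 ⟨x, hx, Or.inl rfl⟩
    have := card_le_card this
    omega
  have hclosed : ∀ X : Finset V, c E X = 0 → Nc E X = X := by
    intro X h
    have h1 : X ⊆ Nc E X := fun x hx => mem_Nc.2 ⟨x, hx, Or.inl rfl⟩
    unfold c at h
    exact (eq_of_subset_of_card_le h1 (by omega)).symm
  have hG' : ∀ X : Finset V, c E (Nc E X) ≤ c E X := by
    intro X
    rcases (hcnn X).lt_or_eq with h | h
    · exact (hG X h).le
    · rw [hclosed X h.symm]
  obtain ⟨⟨B, T⟩, hf, hmin⟩ := exists_min_cost hor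
  have hirr : ∀ x, ¬ E x x := fun x h => hor x x h h
  have hk := key_lemma (E := E) hf.2.1 (row_min hf hmin) (col_min hf hmin)
  have h2c := second_cost hf
  have ho := orth hf
  set X := fun t => cap E B t with hX
  set Y := fun t => Yf E T t with hY
  have hXa : ∀ a, a ∈ X a := by
    intro a
    simp only [hX, mem_cap]
    intro s hs
    refine hf.1 s a ?_
    rcases hs with h | h
    · exact Or.inl h.symm
    · exact Or.inr h
  have hYa : ∀ a, a ∈ Y a := by
    intro a
    exact mem_Yf.2 (Or.inl rfl)
  have hcost : ∑ t, c E (X t) + ∑ t, c E (Y t) ≤ cost E (B, T) := by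
    unfold cost
    simp only
    rw [sum_sub_distrib, sum_sub_distrib] at hk
    have e1 : ∑ x, ((Nc E (T x)).card : ℤ) = ∑ x, c E (T x) + ∑ x, ((T x).card : ℤ) := by
      rw [← sum_add_distrib]
      apply sum_congr rfl
      intro x _
      unfold c
      ring
    have e2 : ∑ x, ((Nc E (cap E T x)).card : ℤ) =
        ∑ x, c E (cap E T x) + ∑ x, ((cap E T x).card : ℤ) := by
      rw [← sum_add_distrib]
      apply sum_congr rfl
      intro x _
      unfold c
      ring
    have h2c' : ∑ t, c E (Y t) ≤ _ := h2c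
    rw [e1, e2] at h2c'
    have hk' : ∑ a, c E (T a) - ∑ a, c E (B a) ≤
        ∑ t, c E (cap E T t) - ∑ t, c E (X t) := hk
    linarith
  obtain ⟨q, hq, hqc⟩ := back hXa hYa ho hirr
  have hmq := hmin q hq
  -- all rows are closed
  have hXz : ∀ a, c E (X a) = 0 := by
    by_contra hcon
    push Not at hcon
    obtain ⟨a, ha⟩ := hcon
    have h1 : ∑ a, c E (Nc E (X a)) < ∑ a, c E (X a) :=
      sum_lt_sum (fun b _ => hG' _) ⟨a, mem_univ _, hG _ (lt_of_le_of_ne (hcnn _) (Ne.symm ha))⟩
    have h2 : ∑ a, c E (Nc E (Y a)) ≤ ∑ a, c E (Y a) := sum_le_sum fun b _ => hG' _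
    linarith
  have hYz : ∀ a, c E (Y a) = 0 := by
    by_contra hcon
    push Not at hcon
    obtain ⟨a, ha⟩ := hcon
    have h1 : ∑ a, c E (Nc E (Y a)) < ∑ a, c E (Y a) :=
      sum_lt_sum (fun b _ => hG' _) ⟨a, mem_univ _, hG _ (lt_of_le_of_ne (hcnn _) (Ne.symm ha))⟩
    have h2 : ∑ a, c E (Nc E (X a)) ≤ ∑ a, c E (X a) := sum_le_sum fun b _ => hG' _
    linarith
  -- minimal closed set
  have h1 : ((univ : Finset (Finset V)).filter
      (fun C => C.Nonempty ∧ ∀ x ∈ C, ∀ y, E x y → y ∈ C)).Nonempty :=
    ⟨univ, by simp [univ_nonempty]⟩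
  obtain ⟨C, hC, hCmin⟩ := exists_min_image _ (fun C => C.card) h1
  simp only [mem_filter, mem_univ, true_and] at hC hCmin
  obtain ⟨⟨b, hb⟩, hCcl⟩ := hC
  obtain ⟨b', hbb'⟩ := hout b
  have hb' : b' ∈ C := hCcl b hb b' hbb'
  have h3 : C ∩ Y b' = C := by
    apply eq_of_subset_of_card_le inter_subset_left
    apply hCmin
    refine ⟨⟨b', mem_inter.2 ⟨hb', hYa b'⟩⟩, fun x hx y hxy => ?_⟩
    rw [mem_inter] at hx ⊢
    refine ⟨hCcl x hx.1 y hxy, ?_⟩
    rw [← hclosed _ (hYz b')]
    exact mem_Nc.2 ⟨x, hx.2, Or.inr hxy⟩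
  have h4 : b ∈ Y b' := by
    have : b ∈ C ∩ Y b' := by rw [h3]; exact hb
    exact (mem_inter.1 this).2
  have hne : b ≠ b' := fun h => by subst h; exact hirr _ hbb'
  refine ho b b' hne ⟨mem_Nc.2 ⟨b, hXa b, Or.inr hbb'⟩, ?_⟩
  exact mem_Nc.2 ⟨b, h4, Or.inl rfl⟩

end Vale.Agent.P038.H103
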