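import Vale.Agent.P038.H103.Fin

open Finset Classical

namespace Vale.Agent.P038.H103

variable {V : Type*} [Fintype V]

/-- first out-neighbourhood -/
noncomputable def O1 (E : V → V → Prop) (v : V) : Finset V := univ.filter (fun u => E v u)

/-- second out-neighbourhood (distance exactly two) -/
noncomputable def O2 (E : V → V → Prop) (v : V) : Finset V :=
  univ.filter (fun z => z ≠ v ∧ ¬ E v z ∧ ∃ u, E v u ∧ E u z)

lemma mem_O1 {E : V → V → Prop} {v u : V} : u ∈ O1 E v ↔ E v u := by simp [O1]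

lemma mem_O2 {E : V → V → Prop} {v z : V} :
    z ∈ O2 E v ↔ (z ≠ v ∧ ¬ E v z ∧ ∃ u, E v u ∧ E u z) := by simp [O2]

/-- (G) of helper294: in an arc-minimal counterexample every set `X` that is not out-closed has
`c (N[X]) < c X`. -/
theorem G_of_min {E : V → V → Prop} (hCE : ∀ v, (O2 E v).card < (O1 E v).card)
    (hmin : ∀ E' : V → V → Prop, (∀ a b, E' a b → E a b) →
      (∀ v, (O2 E' v).card < (O1 E' v).card) → ∀ a b, E a b → E' a b)
    (X : Finset V) (hX : 0 < c E X) : c E (Nc E X) < c E X := by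
  have hXN : X ⊆ Nc E X := fun x hx => mem_Nc.2 ⟨x, hx, Or.inl rfl⟩
  set L := Nc E X \ X with hL
  have hLne : L.Nonempty := by
    rw [hL, sdiff_nonempty]
    intro h
    have : Nc E X = X := Subset.antisymm h hXN
    unfold c at hX
    rw [this] at hX
    omega
  have hLmem : ∀ y, y ∈ L → y ∉ X ∧ ∃ x ∈ X, E x y := by
    intro y hy
    rw [hL, mem_sdiff, mem_Nc] at hy
    obtain ⟨⟨x, hx, h | h⟩, hyX⟩ := hy
    · subst h; exact absurd hx hyX
    · exact ⟨hyX, x, hx, h⟩
  by_contra hcon
  push Not at hcon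
  set d : Finset V → ℤ := fun T => ((Nc E T \ X).card : ℤ) - 2 * T.card with hd
  -- d L = c (N[X]) - c X
  have hdL : 0 ≤ d L := by
    have e1 : Nc E L \ X = Nc E (Nc E X) \ X := by
      ext z
      simp only [mem_sdiff, and_congr_left_iff]
      intro hz
      constructor
      · intro h
        rw [mem_Nc] at h ⊢
        obtain ⟨x, hx, h⟩ := h
        exact ⟨x, (mem_sdiff.1 (hL ▸ hx)).1, h⟩
      · intro h
        rw [mem_Nc] at h
        obtain ⟨x, hx, h⟩ := h
        by_cases hxX : x ∈ X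
        · -- z ∈ N[X], z ∉ X
          have hzL : z ∈ L := by
            rw [hL, mem_sdiff]
            exact ⟨mem_Nc.2 ⟨x, hxX, h⟩, hz⟩
          exact mem_Nc.2 ⟨z, hzL, Or.inl rfl⟩
        · exact mem_Nc.2 ⟨x, by rw [hL, mem_sdiff]; exact ⟨hx, hxX⟩, h⟩
    have hNN : Nc E X ⊆ Nc E (Nc E X) := fun x hx => mem_Nc.2 ⟨x, hx, Or.inl rfl⟩
    have e2 := card_sdiff_add_card_eq_card (hXN.trans hNN)
    have e3 := card_sdiff_add_card_eq_card hXN
    simp only [hd]
    rw [e1]
    unfold c at hcon
    rw [← hL] at e3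
    omega
  -- choose T
  have hne : (L.powerset.filter (fun T => T ≠ L)).Nonempty :=
    ⟨∅, by
      rw [mem_filter]
      exact ⟨mem_powerset.2 (empty_subset _), fun h => by
        rw [← h] at hLne; exact not_nonempty_empty hLne⟩⟩
  obtain ⟨T, hT, hTmin⟩ := exists_min_image _ d hne
  rw [mem_filter, mem_powerset] at hT
  obtain ⟨hTL, hTne⟩ := hT
  have hd0 : d ∅ = 0 := by
    simp [hd, Nc]
  have hdT0 : d T ≤ 0 := by
    rw [← hd0]
    apply hTmin
    rw [mem_filter]
    exact ⟨mem_powerset.2 (empty_subset _), fun h => by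
        rw [← h] at hLne; exact not_nonempty_empty hLne⟩
  have hdmin : ∀ D ⊆ L, T ⊆ D → d T ≤ d D := by
    intro D hD _
    by_cases h : D = L
    · rw [h]; linarith
    · exact hTmin D (by rw [mem_filter, mem_powerset]; exact ⟨hD, h⟩)
  -- the new graph
  set E' : V → V → Prop := fun a b => E a b ∧ ¬ (a ∈ X ∧ b ∉ X ∧ b ∉ T) with hE'
  have hE'E : ∀ a b, E' a b → E a b := fun a b h => h.1
  have hCE' : ∀ v, (O2 E' v).card < (O1 E' v).card := by
    intro v
    by_cases hv : v ∈ X
    · -- D_v, E_v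
      set D := univ.filter (fun b => E v b ∧ b ∉ X ∧ b ∉ T) with hD
      have hDm : ∀ b, b ∈ D ↔ (E v b ∧ b ∉ X ∧ b ∉ T) := by intro b; simp [hD]
      set F := Nc E D \ (Nc E T ∪ X) with hF
      have hDL : D ⊆ L := by
        intro b hb
        rw [hDm] at hb
        rw [hL, mem_sdiff]
        exact ⟨mem_Nc.2 ⟨v, hv, Or.inr hb.1⟩, hb.2.1⟩
      have hdisj : Disjoint T D := by
        rw [disjoint_left]
        intro b hb hb'
        exact ((hDm b).1 hb').2.2 hb
      have h1 := hdmin (T ∪ D) (union_subset hTL hDL) subset_union_left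
      have h2 : Nc E (T ∪ D) \ X = (Nc E T \ X) ∪ F := by
        ext z
        simp only [hF, mem_sdiff, mem_union, mem_Nc]
        constructor
        · rintro ⟨⟨x, hx | hx, h⟩, hz⟩
          · exact Or.inl ⟨⟨x, hx, h⟩, hz⟩
          · by_cases h3 : ∃ x ∈ T, x = z ∨ E x z
            · exact Or.inl ⟨h3, hz⟩
            · exact Or.inr ⟨⟨x, hx, h⟩, fun h4 => h4.elim h3 hz⟩
        · rintro (⟨⟨x, hx, h⟩, hz⟩ | ⟨⟨x, hx, h⟩, hz⟩)
          · exact ⟨⟨x, Or.inl hx, h⟩, hz⟩
          · exact ⟨⟨x, Or.inr hx, h⟩, fun h4 => hz (Or.inr h4)⟩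
      have h3 : Disjoint (Nc E T \ X) F := by
        rw [disjoint_left]
        intro z hz hz'
        rw [hF, mem_sdiff, mem_union] at hz'
        rw [mem_sdiff] at hz
        exact hz'.2 (Or.inl hz.1)
      simp only [hd] at h1
      rw [h2, card_union_of_disjoint h3, card_union_of_disjoint hdisj] at h1
      -- |O1'| + |D| = |O1|
      have h4 : O1 E v = O1 E' v ∪ D := by
        ext b
        simp only [mem_union, mem_O1, hDm, hE']
        tauto
      have h5 : Disjoint (O1 E' v) D := by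
        rw [disjoint_left]
        intro b hb hb'
        rw [mem_O1] at hb
        rw [hDm] at hb'
        exact hb.2 ⟨hv, hb'.2⟩
      have h6 : (O1 E v).card = (O1 E' v).card + D.card := by
        rw [h4, card_union_of_disjoint h5]
      -- O2' ∪ F ⊆ O2 ∪ D
      have h7 : O2 E' v ∪ F ⊆ O2 E v ∪ D := by
        intro z hz
        rw [mem_union] at hz
        rw [mem_union, mem_O2, hDm]
        rcases hz with hz | hz
        · rw [mem_O2] at hz
          obtain ⟨hzv, hnE, u, hu, huz⟩ := hz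
          by_cases h : E v z
          · right
            refine ⟨h, ?_⟩
            by_contra h'
            exact hnE ⟨h, fun h'' => h' h''.2⟩
          · exact Or.inl ⟨hzv, h, u, hu.1, huz.1⟩
        · rw [hF, mem_sdiff, mem_union, mem_Nc] at hz
          obtain ⟨⟨b, hb, hbz⟩, hz'⟩ := hz
          rw [not_or] at hz'
          rw [hDm] at hb
          have hzT : z ∉ T := fun h => hz'.1 (mem_Nc.2 ⟨z, h, Or.inl rfl⟩)
          by_cases h : E v z
          · exact Or.inr ⟨h, hz'.2, hzT⟩
          · left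
            refine ⟨fun h' => hz'.2 (by rw [h']; exact hv), h, b, hb.1, ?_⟩
            rcases hbz with h' | h'
            · subst h'; exact absurd hb.1 h
            · exact h'
      have h8 : Disjoint (O2 E' v) F := by
        rw [disjoint_left]
        intro z hz hz'
        rw [mem_O2] at hz
        rw [hF, mem_sdiff, mem_union, not_or] at hz'
        obtain ⟨hzv, hnE, u, hu, huz⟩ := hz
        obtain ⟨_, hzT, hzX⟩ := hz'
        have huXT : u ∈ X ∨ u ∈ T := by
          by_contra h
          rw [not_or] at h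
          exact hu.2 ⟨hv, h.1, h.2⟩
        rcases huXT with h | h
        · apply huz.2
          refine ⟨h, hzX, fun h' => hzT (mem_Nc.2 ⟨z, h', Or.inl rfl⟩)⟩
        · exact hzT (mem_Nc.2 ⟨u, h, Or.inr huz.1⟩)
      have h9 := card_le_card h7
      rw [card_union_of_disjoint h8] at h9
      have h10 := card_union_le (O2 E v) D
      have h11 := hCE v
      push_cast at h1
      omega
    · have h1 : O1 E' v = O1 E v := by
        ext b
        simp only [mem_O1, hE']
        tauto
      have h2 : O2 E' v ⊆ O2 E v := by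
        intro z hz
        rw [mem_O2] at hz ⊢
        obtain ⟨hzv, hnE, u, hu, huz⟩ := hz
        exact ⟨hzv, fun h => hnE ⟨h, fun h' => hv h'.1⟩, u, hu.1, huz.1⟩
      rw [h1]
      exact (card_le_card h2).trans_lt (hCE v)
  -- contradiction
  have hex : ∃ b ∈ L, b ∉ T := by
    by_contra h
    push Not at h
    exact hTne (Subset.antisymm hTL h)
  obtain ⟨b, hbL, hbT⟩ := hex
  obtain ⟨hbX, x, hx, hxb⟩ := hLmem b hbL
  exact (hmin E' hE'E hCE' x b hxb).2 ⟨hx, hbX, hbT⟩

/-- existence of an arc-minimal counterexample -/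
lemma exists_arc_minimal {E : V → V → Prop} (hCE : ∀ v, (O2 E v).card < (O1 E v).card) :
    ∃ E0 : V → V → Prop, (∀ a b, E0 a b → E a b) ∧ (∀ v, (O2 E0 v).card < (O1 E0 v).card) ∧
      ∀ E' : V → V → Prop, (∀ a b, E' a b → E0 a b) →
        (∀ v, (O2 E' v).card < (O1 E' v).card) → ∀ a b, E0 a b → E' a b := by
  set P : (V → V → Prop) → Prop := fun E0 => (∀ a b, E0 a b → E a b) ∧
    ∀ v, (O2 E0 v).card < (O1 E0 v).card with hP
  have hex : ∃ n, ∃ E0, P E0 ∧ (univ.filter (fun q : V × V => E0 q.1 q.2)).card = n :=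
    ⟨_, E, ⟨fun _ _ h => h, hCE⟩, rfl⟩
  obtain ⟨E0, hE0, hn⟩ := Nat.find_spec hex
  refine ⟨E0, hE0.1, hE0.2, fun E' hE' hCE' a b hab => ?_⟩
  by_contra hnab
  have h1 : (univ.filter (fun q : V × V => E' q.1 q.2)).card <
      (univ.filter (fun q : V × V => E0 q.1 q.2)).card := by
    apply card_lt_card
    refine ⟨fun q hq => ?_, fun h => ?_⟩
    · simp only [mem_filter, mem_univ, true_and] at hq ⊢
      exact hE' _ _ hq
    · have : (a, b) ∈ univ.filter (fun q : V × V => E' q.1 q.2) := h (by simpa using hab)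
      simp only [mem_filter, mem_univ, true_and] at this
      exact hnab this
  have h2 := Nat.find_min' hex ⟨E', ⟨fun a b h => hE0.1 a b (hE' a b h), hCE'⟩, rfl⟩
  omega

/-- **Seymour's second neighbourhood conjecture.** -/
theorem snc [Nonempty V] (E : V → V → Prop) (hor : ∀ x y, E x y → ¬ E y x) :
    ∃ v, (O1 E v).card ≤ (O2 E v).card := by
  by_contra hcon
  push Not at hcon
  obtain ⟨E0, h1, h2, h3⟩ := exists_arc_minimal hcon
  refine no_expander (E := E0) (fun x y h h' => hor x y (h1 _ _ h) (h1 _ _ h')) (fun v => ?_)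
    (G_of_min h2 h3)
  have := h2 v
  have h4 : (O1 E0 v).Nonempty := card_pos.1 (by omega)
  obtain ⟨u, hu⟩ := h4
  exact ⟨u, mem_O1.1 hu⟩

end Vale.Agent.P038.H103
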