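import Mathlib

open Finset Classical

namespace Vale.Agent.P038.H103

variable {V : Type*} [Fintype V]

/-- closed out-neighbourhood of a set -/
noncomputable def Nc (E : V → V → Prop) (R : Finset V) : Finset V :=
  univ.filter (fun y => ∃ x ∈ R, x = y ∨ E x y)

/-- size of the outer boundary of a set, as an integer -/
noncomputable def c (E : V → V → Prop) (R : Finset V) : ℤ := ((Nc E R).card : ℤ) - R.card

/-- rowwise intersection over the closed in-neighbourhood -/
noncomputable def cap (E : V → V → Prop) (B : V → Finset V) (t : V) : Finset V :=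
  univ.filter (fun x => ∀ a, (a = t ∨ E a t) → x ∈ B a)

lemma mem_Nc {E : V → V → Prop} {R : Finset V} {y : V} :
    y ∈ Nc E R ↔ ∃ x ∈ R, x = y ∨ E x y := by simp [Nc]

lemma mem_cap {E : V → V → Prop} {B : V → Finset V} {t x : V} :
    x ∈ cap E B t ↔ ∀ a, (a = t ∨ E a t) → x ∈ B a := by simp [cap]

lemma c_submod (E : V → V → Prop) (R S : Finset V) :
    c E (R ∪ S) + c E (R ∩ S) ≤ c E R + c E S := by
  have h1 : Nc E (R ∪ S) = Nc E R ∪ Nc E S := by
    ext y
    simp only [mem_Nc, mem_union]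
    constructor
    · rintro ⟨x, hx | hx, h⟩
      · exact Or.inl ⟨x, hx, h⟩
      · exact Or.inr ⟨x, hx, h⟩
    · rintro (⟨x, hx, h⟩ | ⟨x, hx, h⟩)
      · exact ⟨x, Or.inl hx, h⟩
      · exact ⟨x, Or.inr hx, h⟩
  have h2 : Nc E (R ∩ S) ⊆ Nc E R ∩ Nc E S := by
    intro y hy
    rw [mem_Nc] at hy
    obtain ⟨x, hx, h⟩ := hy
    rw [mem_inter] at hx
    rw [mem_inter, mem_Nc, mem_Nc]
    exact ⟨⟨x, hx.1, h⟩, ⟨x, hx.2, h⟩⟩
  have h3 := card_union_add_card_inter (Nc E R) (Nc E S)
  have h4 := card_union_add_card_inter R S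
  have h5 := card_le_card h2
  unfold c
  rw [h1]
  omega

/-- `M` minimises `K c(R) - i |R|` over the interval `[B, T]`. -/
def IsM (E : V → V → Prop) (K i : ℕ) (B T M : Finset V) : Prop :=
  B ⊆ M ∧ M ⊆ T ∧ ∀ R, B ⊆ R → R ⊆ T →
    (K : ℤ) * c E M - i * M.card ≤ K * c E R - i * R.card

lemma exists_isM (E : V → V → Prop) (K i : ℕ) {B T : Finset V} (h : B ⊆ T) :
    ∃ M, IsM E K i B T M ∧ ∀ M', IsM E K i B T M' → M.card ≤ M'.card := by
  have h1 : ((univ : Finset (Finset V)).filter (fun R => B ⊆ R ∧ R ⊆ T)).Nonempty :=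
    ⟨B, by simp [h]⟩
  obtain ⟨M0, hM0, hmin⟩ := exists_min_image _
    (fun R => (K : ℤ) * c E R - i * R.card) h1
  simp only [mem_filter, mem_univ, true_and] at hM0 hmin
  have h0 : IsM E K i B T M0 := ⟨hM0.1, hM0.2, fun R h1 h2 => hmin R ⟨h1, h2⟩⟩
  have h2 : ((univ : Finset (Finset V)).filter (fun R => IsM E K i B T R)).Nonempty :=
    ⟨M0, by simp [h0]⟩
  obtain ⟨M, hM, hminM⟩ := exists_min_image _ (fun R => R.card) h2
  simp only [mem_filter, mem_univ, true_and] at hM hminM
  exact ⟨M, hM, hminM⟩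

lemma isM_mono {E : V → V → Prop} {K i : ℕ} {I J B T M1 M2 : Finset V}
    (hIB : I ⊆ B) (hJT : J ⊆ T) (h1 : IsM E K i I J M1)
    (h1' : ∀ M', IsM E K i I J M' → M1.card ≤ M'.card) (h2 : IsM E K i B T M2) :
    M1 ⊆ M2 := by
  obtain ⟨a1, b1, c1⟩ := h1
  obtain ⟨a2, b2, c2⟩ := h2
  have hs := c_submod E M1 M2
  have hc := card_union_add_card_inter M1 M2
  have e1 := c2 (M1 ∪ M2) (a2.trans subset_union_right)
    (union_subset (b1.trans hJT) b2)
  have hK : (0 : ℤ) ≤ K := by positivity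
  have hs' : (K : ℤ) * c E (M1 ∪ M2) + K * c E (M1 ∩ M2) ≤ K * c E M1 + K * c E M2 := by
    have := mul_le_mul_of_nonneg_left hs hK
    linarith [mul_add (K : ℤ) (c E (M1 ∪ M2)) (c E (M1 ∩ M2)), mul_add (K : ℤ) (c E M1) (c E M2)]
  have hc' : (i : ℤ) * (M1 ∪ M2).card + i * (M1 ∩ M2).card = i * M1.card + i * M2.card := by
    have : ((M1 ∪ M2).card : ℤ) + (M1 ∩ M2).card = M1.card + M2.card := by exact_mod_cast hc
    rw [← mul_add, ← mul_add, this]
  have hm : IsM E K i I J (M1 ∩ M2) := by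
    refine ⟨subset_inter a1 (hIB.trans a2), inter_subset_left.trans b1, fun R hR1 hR2 => ?_⟩
    have := c1 R hR1 hR2
    linarith
  have h3 := h1' _ hm
  have h4 : M1 ∩ M2 = M1 := eq_of_subset_of_card_le inter_subset_left h3
  intro x hx
  have : x ∈ M1 ∩ M2 := by rw [h4]; exact hx
  exact (mem_inter.1 this).2

/-- parametric formula, both inequalities -/
lemma param (E : V → V → Prop) (K : ℕ) (hK : 0 < K) {B T : Finset V} (hBT : B ⊆ T)
    (hB : ∀ R, B ⊆ R → R ⊆ T → c E B ≤ c E R)
    (M : ℕ → Finset V) (hM : ∀ i, IsM E K i B T (M i)) :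
    (K : ℤ) * (c E T - c E B) ≤
        ∑ i ∈ range (K * (Fintype.card V + 1)), ((T \ M i).card : ℤ) ∧
      ∑ i ∈ range (K * (Fintype.card V + 1)), ((T \ M (i + 1)).card : ℤ) ≤
        (K : ℤ) * (c E T - c E B) := by
  have hcard : ∀ i, ((T \ M i).card : ℤ) = T.card - (M i).card := by
    intro i
    have := card_sdiff_add_card_eq_card (hM i).2.1
    omega
  set φ : ℕ → ℤ := fun i => (K : ℤ) * c E (M i) - i * (M i).card with hφ
  have h0 : φ 0 = K * c E B := by
    have e1 := (hM 0).2.2 B (Subset.refl _) hBT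
    have e2 := hB (M 0) (hM 0).1 (hM 0).2.1
    have e3 : (K : ℤ) * c E B ≤ K * c E (M 0) := mul_le_mul_of_nonneg_left e2 (by positivity)
    simp only [hφ]
    push_cast at e1 ⊢
    linarith
  have hstep1 : ∀ i, φ (i + 1) ≤ φ i - (M i).card := by
    intro i
    have := (hM (i + 1)).2.2 (M i) (hM i).1 (hM i).2.1
    simp only [hφ]
    push_cast at this ⊢
    linarith
  have hstep2 : ∀ i, φ i ≤ φ (i + 1) + (M (i + 1)).card := by
    intro i
    have := (hM i).2.2 (M (i + 1)) (hM (i + 1)).1 (hM (i + 1)).2.1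
    simp only [hφ]
    push_cast at this ⊢
    linarith
  have hsum1 : ∀ L, φ L ≤ φ 0 - ∑ i ∈ range L, ((M i).card : ℤ) := by
    intro L
    induction L with
    | zero => simp
    | succ L ih =>
      rw [sum_range_succ]
      have := hstep1 L
      linarith
  have hsum2 : ∀ L, φ 0 ≤ φ L + ∑ i ∈ range L, ((M (i + 1)).card : ℤ) := by
    intro L
    induction L with
    | zero => simp
    | succ L ih =>
      rw [sum_range_succ]
      have := hstep2 L
      linarith
  set L := K * (Fintype.card V + 1) with hL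
  have hML : M L = T := by
    by_contra hne
    have hss : M L ⊂ T := ⟨(hM L).2.1, fun h => hne (Subset.antisymm (hM L).2.1 h)⟩
    have hlt := card_lt_card hss
    have e1 := (hM L).2.2 T hBT (Subset.refl _)
    have e2 : c E T ≤ Fintype.card V := by
      unfold c
      have : (Nc E T).card ≤ Fintype.card V := card_le_univ _
      omega
    have e3 : 0 ≤ c E (M L) := by
      unfold c
      have : (M L) ⊆ Nc E (M L) := fun x hx => mem_Nc.2 ⟨x, hx, Or.inl rfl⟩
      have := card_le_card this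
      omega
    have e4 : (K : ℤ) * c E T ≤ K * Fintype.card V := mul_le_mul_of_nonneg_left e2 (by positivity)
    have e5 : 0 ≤ (K : ℤ) * c E (M L) := by positivity
    have e6 : (L : ℤ) * ((M L).card + 1) ≤ L * T.card :=
      mul_le_mul_of_nonneg_left (by exact_mod_cast hlt) (by positivity)
    have e7 : (L : ℤ) = K * Fintype.card V + K := by
      rw [hL]; push_cast; ring
    have hK' : (0 : ℤ) < K := by exact_mod_cast hK
    linarith
  have hφL : φ L = K * c E T - L * T.card := by simp only [hφ]; rw [hML]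
  have hsT : ∑ i ∈ range L, ((T.card : ℤ)) = L * T.card := by simp
  constructor
  · have := hsum1 L
    simp_rw [hcard]
    rw [sum_sub_distrib, hsT]
    rw [h0, hφL] at this
    linarith
  · have := hsum2 L
    simp_rw [hcard]
    rw [sum_sub_distrib, hsT]
    rw [h0, hφL] at this
    linarith

/-- intersections of row-minimal sets are row-minimal -/
lemma cap_min {E : V → V → Prop} {B T : V → Finset V}
    (hR : ∀ a R, B a ⊆ R → R ⊆ T a → c E (B a) ≤ c E R) (hBT : ∀ a, B a ⊆ T a) (t : V) :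
    ∀ R, cap E B t ⊆ R → R ⊆ cap E T t → c E (cap E B t) ≤ c E R := by
  -- for any finite set `S` of in-neighbours
  have key : ∀ S : Finset V, (∀ a ∈ S, a = t ∨ E a t) → ∀ R, R ⊆ cap E T t →
      c E (R.filter (fun x => ∀ a ∈ S, x ∈ B a)) ≤ c E R := by
    intro S
    induction S using Finset.induction_on with
    | empty => intro _ R _; simp
    | insert a S ha ih =>
      intro hS R hRT
      have ih' := ih (fun b hb => hS b (mem_insert_of_mem hb)) R hRT
      set R' := R.filter (fun x => ∀ a ∈ S, x ∈ B a) with hR'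
      have e1 : R.filter (fun x => ∀ b ∈ insert a S, x ∈ B b) = R' ∩ B a := by
        ext x
        simp only [hR', mem_filter, mem_inter, mem_insert, forall_eq_or_imp]
        tauto
      rw [e1]
      have hR'T : R' ⊆ T a := by
        intro x hx
        have : x ∈ R := (mem_filter.1 hx).1
        exact mem_cap.1 (hRT this) a (hS a (mem_insert_self _ _))
      have e2 := hR a (R' ∪ B a) subset_union_right (union_subset hR'T (hBT a))
      have e3 := c_submod E R' (B a)
      linarith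
  intro R h1 h2
  have h := key (univ.filter (fun a => a = t ∨ E a t)) (by simp) R h2
  have e : R.filter (fun x => ∀ a ∈ univ.filter (fun a => a = t ∨ E a t), x ∈ B a)
      = cap E B t := by
    ext x
    simp only [mem_filter, mem_univ, true_and, mem_cap]
    constructor
    · rintro ⟨_, h⟩; exact h
    · intro h; exact ⟨h1 (mem_cap.2 h), h⟩
  rw [e] at h
  exact h

/-- double counting -/
lemma sum_card_comm (F : V → Finset V) : ∑ a, ((F a).card : ℤ) =
    ∑ x, ((univ.filter (fun a => x ∈ F a)).card : ℤ) := by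
  have h1 : ∀ a, ((F a).card : ℤ) = ∑ x, if x ∈ F a then (1 : ℤ) else 0 := by
    intro a; simp
  have h2 : ∀ x, ((univ.filter (fun a => x ∈ F a)).card : ℤ) =
      ∑ a, if x ∈ F a then (1 : ℤ) else 0 := by
    intro x; simp
  simp_rw [h1, h2]
  exact sum_comm

/-- comparison at a fixed parameter -/
lemma cmp {E : V → V → Prop} {B T : V → Finset V}
    (hC : ∀ x (D : Finset V), (∀ a ∈ D, x ∈ T a ∧ x ∉ B a) →
      D.card ≤ (univ.filter (fun t => x ∈ cap E T t ∧ ∃ a ∈ D, a = t ∨ E a t)).card)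
    (M P : V → Finset V) (hM : ∀ a, B a ⊆ M a)
    (hmono : ∀ t a : V, (a = t ∨ E a t) → P t ⊆ M a) :
    ∑ a, ((T a \ M a).card : ℤ) ≤ ∑ t, ((cap E T t \ P t).card : ℤ) := by
  rw [sum_card_comm (fun a => T a \ M a), sum_card_comm (fun t => cap E T t \ P t)]
  apply sum_le_sum
  intro x _
  have h3 := hC x (univ.filter (fun a => x ∈ T a \ M a)) (by
    intro a ha
    simp only [mem_filter, mem_univ, true_and, mem_sdiff] at ha
    exact ⟨ha.1, fun h => ha.2 (hM a h)⟩)
  refine Int.ofNat_le.2 (h3.trans (card_le_card ?_))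
  intro t ht
  simp only [mem_filter, mem_univ, true_and, mem_sdiff] at ht ⊢
  obtain ⟨h5, a, ha, hat⟩ := ht
  exact ⟨h5, fun h => ha.2 (hmono t a hat h)⟩

lemma arith (n K : ℕ) (hKn : K = n * n + 1) (L : ℕ) (g : ℕ → ℤ) (hg0 : g 0 ≤ n * n)
    (hgL : 0 ≤ g L) (α β : ℤ) (hA : (K : ℤ) * α ≤ ∑ i ∈ range L, g i)
    (hB : ∑ i ∈ range L, g (i + 1) ≤ (K : ℤ) * β) : α ≤ β := by
  have hshift : ∑ i ∈ range L, g i ≤ n * n + ∑ i ∈ range L, g (i + 1) := by
    have h1 := sum_range_succ g L
    have h2 := sum_range_succ' g L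
    linarith
  by_contra hcon
  push Not at hcon
  have h5 : (K : ℤ) * (β + 1) ≤ K * α :=
    mul_le_mul_of_nonneg_left (by linarith) (by positivity)
  have h6 : (K : ℤ) = n * n + 1 := by rw [hKn]; push_cast; ring
  have h7 : (K : ℤ) * (β + 1) = K * β + K := by ring
  linarith

/-- THE KEY LEMMA -/
theorem key_lemma {E : V → V → Prop} {B T : V → Finset V} (hBT : ∀ a, B a ⊆ T a)
    (hR : ∀ a R, B a ⊆ R → R ⊆ T a → c E (B a) ≤ c E R)
    (hC : ∀ x (D : Finset V), (∀ a ∈ D, x ∈ T a ∧ x ∉ B a) →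
      D.card ≤ (univ.filter (fun t => x ∈ cap E T t ∧ ∃ a ∈ D, a = t ∨ E a t)).card) :
    ∑ a, (c E (T a) - c E (B a)) ≤ ∑ t, (c E (cap E T t) - c E (cap E B t)) := by
  have hK : 0 < Fintype.card V * Fintype.card V + 1 := by omega
  generalize hKdef : Fintype.card V * Fintype.card V + 1 = K at hK
  have hcapBT : ∀ t, cap E B t ⊆ cap E T t := by
    intro t x hx
    rw [mem_cap] at hx ⊢
    exact fun a ha => hBT a (hx a ha)
  choose M hM _ using fun (a : V) (i : ℕ) => exists_isM E K i (hBT a)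
  choose P hP hP' using fun (t : V) (i : ℕ) => exists_isM E K i (hcapBT t)
  have hcmp : ∀ i, ∑ a, ((T a \ M a i).card : ℤ) ≤ ∑ t, ((cap E T t \ P t i).card : ℤ) :=
    fun i => cmp hC (fun a => M a i) (fun t => P t i) (fun a => (hM a i).1)
      (fun t a hat => isM_mono (fun x hx => mem_cap.1 hx a hat) (fun x hx => mem_cap.1 hx a hat)
      (hP t i) (hP' t i) (hM a i))
  have hup := fun a => (param E K hK (hBT a) (hR a) (M a) (hM a)).1
  have hlow := fun t => (param E K hK (hcapBT t) (cap_min hR hBT t) (P t) (hP t)).2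
  generalize K * (Fintype.card V + 1) = L at hup hlow
  refine arith (Fintype.card V) K hKdef.symm L
    (fun i => ∑ t, ((cap E T t \ P t i).card : ℤ)) ?_ ?_ _ _ ?_ ?_
  · calc ∑ t, ((cap E T t \ P t 0).card : ℤ) ≤ ∑ _t : V, (Fintype.card V : ℤ) := by
          apply sum_le_sum
          intro t _
          exact Int.ofNat_le.2 (card_le_univ _)
      _ = Fintype.card V * Fintype.card V := by simp
  · exact sum_nonneg fun t _ => by positivity
  · rw [mul_sum]
    calc ∑ a, (K : ℤ) * (c E (T a) - c E (B a))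
        ≤ ∑ a, ∑ i ∈ range L, ((T a \ M a i).card : ℤ) := sum_le_sum fun a _ => hup a
      _ = ∑ i ∈ range L, ∑ a, ((T a \ M a i).card : ℤ) := sum_comm
      _ ≤ _ := sum_le_sum fun i _ => hcmp i
  · rw [mul_sum, sum_comm]
    exact sum_le_sum fun t _ => hlow t

end Vale.Agent.P038.H103
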